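import Vale.Agent.P365.T2.H789.AvErr
import Vale.Agent.P365.T2.H913.LyYf
import Vale.Agent.P365.T2.H320.UHub
import Vale.Agent.P365.T2.H320.PhiR
import Vale.Agent.P365.T2.H320.UAvg
import Vale.Agent.P365.T2.H963.ContUps
import Vale.Agent.P365.T2.UpsBd844
import Vale.Agent.P365.T2.H213.Spec

/-!
# P365-T2, X-LAWERR: from the one-site bound of the law error of `Ups` to the sum over sites and
labels (helper256, shadow of 678's `LawSum`)

`CtU` = content of the site `y`; `∑_y om_y CtU_y ≤ 5 ∑_v pr_v V_v`.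
`errSum_le`: one-site bound ⟹ `|ErrSum| ≤ 5 C0 PhiG f + C1 L² ∑_{k < J+3} YG (kf f J k)`.
-/

set_option linter.all false

namespace P365T2.H256

open Finset P365L P365O P365T1 P365L.TL Matrix Complex MeasureTheory Filter Topology
open Vale.Agent.P365.J376 P365L.T2.Path P365H878 Vale.Agent.P365.T2.H789
open P365T2.H844 (tt pr Vr Pw ur TT fam Ups sum_Pw_one sum_Pw_self rho_ur pr_TT_pos TT_nonneg
  sum_pr_Vr_fam Pw_nonneg ur_nonneg)
open P365T2.H37 (wk rho)
open P365T2.H320U (kf omT_nonneg omT_le_one eT_pos')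
open scoped ComplexConjugate ENNReal

section det

variable {E : Type*} [NormedAddCommGroup E] [InnerProductSpace ℝ E]
  {ι : Type*} [Fintype ι] (Φ : ι → E) (Q : ι → ι → ℝ)

/-- content of the site `y` -/
noncomputable def CtQ (J : ℕ) (y : ι) : ℝ :=
  ∑ x, ∑ k ∈ range (J + 2), Q x y * (Pw Φ Q J k y x + rho k * ur Φ Q J k x)

variable {Φ Q}

theorem CtQ_nonneg (hQ : ∀ x y, 0 ≤ Q x y) (hp : ∀ x, 0 < pr Q x) (J : ℕ) (y : ι) :
    0 ≤ CtQ Φ Q J y :=
  sum_nonneg fun x _ => sum_nonneg fun k _ => mul_nonneg (hQ x y)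
    (add_nonneg (Pw_nonneg hQ hp y x)
      (mul_nonneg (P365T2.H37.rho_pos k).le (ur_nonneg hQ hp x)))

theorem CtQ_eq (J : ℕ) (y : ι) :
    CtQ Φ Q J y = ∑ x, Q x y * (∑ b, Q y b / pr Q y * tt Φ x b + Vr Φ Q x) := by
  unfold CtQ
  refine sum_congr rfl fun x _ => ?_
  rw [← mul_sum, sum_add_distrib, sum_Pw_one]
  simp only [rho_ur]
  rw [sum_Pw_self]

theorem tt_le_two (x y b : ι) : tt Φ x b ≤ 2 * tt Φ x y + 2 * tt Φ b y := by
  unfold tt
  have h : Φ x - Φ b = (Φ x - Φ y) - (Φ b - Φ y) := by abel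
  rw [h]
  have h1 := norm_sub_le (Φ x - Φ y) (Φ b - Φ y)
  have h2 : 0 ≤ ‖(Φ x - Φ y) - (Φ b - Φ y)‖ := norm_nonneg _
  nlinarith [sq_nonneg (‖Φ x - Φ y‖ - ‖Φ b - Φ y‖), norm_nonneg (Φ x - Φ y),
    norm_nonneg (Φ b - Φ y)]

/-- **sum of the contents** -/
theorem sum_CtQ_le (hQ : ∀ x y, 0 ≤ Q x y) (hs : ∀ x y, Q x y = Q y x) (hp : ∀ x, 0 < pr Q x)
    (J : ℕ) : ∑ y, CtQ Φ Q J y ≤ 5 * ∑ v, pr Q v * Vr Φ Q v := by
  have h1 : ∀ y, CtQ Φ Q J y ≤
      2 * (∑ x, Q x y * tt Φ x y) + 2 * (pr Q y * Vr Φ Q y) + ∑ x, Q x y * Vr Φ Q x := by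
    intro y
    rw [CtQ_eq]
    have h2 : ∀ x, Q x y * (∑ b, Q y b / pr Q y * tt Φ x b + Vr Φ Q x) ≤
        Q x y * (2 * tt Φ x y + 2 * Vr Φ Q y) + Q x y * Vr Φ Q x := by
      intro x
      rw [mul_add]
      refine add_le_add (mul_le_mul_of_nonneg_left ?_ (hQ x y)) le_rfl
      calc ∑ b, Q y b / pr Q y * tt Φ x b
          ≤ ∑ b, Q y b / pr Q y * (2 * tt Φ x y + 2 * tt Φ b y) :=
            sum_le_sum fun b _ => mul_le_mul_of_nonneg_left (tt_le_two x y b)
              (div_nonneg (hQ y b) (hp y).le)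
        _ = (∑ b, Q y b / pr Q y) * (2 * tt Φ x y) + 2 * Vr Φ Q y := by
            rw [Vr, sum_mul, mul_sum, ← sum_add_distrib]
            exact sum_congr rfl fun b _ => by ring
        _ = _ := by rw [P365T2.H844.sum_P y (hp y), one_mul]
    refine (sum_le_sum fun x _ => h2 x).trans (le_of_eq ?_)
    rw [sum_add_distrib]
    congr 1
    have e1 : ∀ x, Q x y * (2 * tt Φ x y + 2 * Vr Φ Q y) =
        2 * (Q x y * tt Φ x y) + Q x y * (2 * Vr Φ Q y) := fun x => by ring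
    simp only [e1]
    rw [sum_add_distrib, ← mul_sum, ← sum_mul, ← P365T2.H844.pr_symm hs y]
    ring
  refine (sum_le_sum fun y _ => h1 y).trans (le_of_eq ?_)
  rw [sum_add_distrib, sum_add_distrib, ← mul_sum, ← mul_sum]
  have e2 : ∑ y, ∑ x, Q x y * tt Φ x y = ∑ v, pr Q v * Vr Φ Q v := by
    refine sum_congr rfl fun y _ => ?_
    rw [P365T2.H844.pr_Vr hp]
    exact sum_congr rfl fun x _ => by rw [hs x y]
  have e3 : ∑ y, ∑ x, Q x y * Vr Φ Q x = ∑ v, pr Q v * Vr Φ Q v := by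
    rw [sum_comm]
    refine sum_congr rfl fun x _ => ?_
    rw [← sum_mul]
    rfl
  rw [e2, e3]
  ring

end det

section avg

variable {ι : Type*} [Fintype ι] [DecidableEq ι] {A : Matrix ι ι ℝ}
  {Λ : Type*} [Fintype Λ] {p : Λ → ℝ} {ν : Λ → Measure ℝ} {E : ℝ}
  {κ : Type*} [Fintype κ] {u w : (ι → Λ) → ι → ℝ} {f : κ → ι → ℝ}

/-- content of the site `y` for the family `f` -/
noncomputable def CtU (A : Matrix ι ι ℝ) (f : κ → ι → ℝ) (J : ℕ) (y : ι) (W : ι → ℂ) : ℝ :=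
  CtQ (fam f) (TT A W) J y

theorem CtU_nonneg (hA : A.IsSymm) {W : ι → ℂ} (hW : W ∈ LH ι) (J : ℕ) (y : ι) :
    0 ≤ CtU A f J y W :=
  CtQ_nonneg (TT_nonneg hW) (pr_TT_pos hA hW) J y

theorem continuousOn_CtU (hA : A.IsSymm) (J : ℕ) (y : ι) :
    ContinuousOn (CtU A f J y) (LH ι) := by
  unfold CtU CtQ
  refine continuousOn_finset_sum _ fun x _ => continuousOn_finset_sum _ fun k _ => ?_
  exact (P365L.T2.Path.contDiffOn_TT (n := 0) hA x y).continuousOn.mul
    ((P365L.T2.Path.contDiffOn_Pw (n := 0) hA J k y x).continuousOn.add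
      (continuousOn_const.mul (P365L.T2.Path.contDiffOn_ur (n := 0) hA J k x).continuousOn))

/-- weighted sum of the contents -/
theorem sum_om_CtU_le (hA : A.IsSymm) {W : ι → ℂ} (hW : W ∈ LH ι) {om : ι → ℝ}
    (h1 : ∀ x, om x ≤ 1) (J : ℕ) :
    ∑ y, om y * CtU A f J y W ≤ 5 * ∑ k, En A W (f k) := by
  rw [← sum_pr_Vr_fam hA hW f]
  refine le_trans (sum_le_sum fun y _ => ?_) (sum_CtQ_le (TT_nonneg hW)
    (fun x y => P365T2.H844.TT_symm hA x y) (pr_TT_pos hA hW) J)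
  have h2 := CtU_nonneg (f := f) hA hW J y
  calc om y * CtU A f J y W ≤ 1 * CtU A f J y W := mul_le_mul_of_nonneg_right (h1 y) h2
    _ = _ := one_mul _

/-- **sum over sites and labels of the law errors**, from the one-site bound -/
theorem errSum_le (hA : A.IsSymm) [∀ k, IsProbabilityMeasure (ν k)] (hp : ∀ k, 0 ≤ p k) {R : ℝ}
    (hR : ∀ k, ν k (Set.Icc (-R) R)ᶜ = 0) (hu : ∀ l x, 0 < u l x) (hw : ∀ l x, 0 ≤ w l x)
    {rd : Λ → ℝ → ℝ} {F : (ι → Λ) → (ι → ℂ) → ℝ} {J : ℕ} {τ C0 K : ℝ} (hC0 : 0 ≤ C0)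
    (H : ∀ l x, w l x ≠ 0 → ∀ v,
      |∫ t : ℝ, rd (l x) t * HV A (F l) x (WV E (eT u w τ l) (Function.update v x t))| ≤
      ∫ t, C0 * CtU A f J x (WV E (eT u w τ l) (Function.update v x t)) ∂(ν (l x)) +
        K * (eT u w τ l x * ∑ k ∈ range (J + 3), ∑ j, Yf A (WV E (eT u w τ l) v) (kf f J k j) x)) :
    |ErrSum A p ν E (eT u w τ) (omT u w τ) rd F| ≤
      5 * C0 * PhiG A p ν E f (eT u w τ) +
        K * ∑ k ∈ range (J + 3), YG A p ν E (kf f J k) (eT u w τ) (wT w τ) := by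
  have he : ∀ l x, 0 < eT u w τ l x := eT_pos' hu hw τ
  have hom0 := omT_nonneg hu hw τ
  have hom1 := omT_le_one hu hw τ
  have hne : ∀ l x, omT u w τ l x ≠ 0 → w l x ≠ 0 := by
    intro l x h hx
    apply h
    simp [omT, wT, hx]
  have cG : ∀ x, ContinuousOn (fun W => C0 * CtU A f J x W) (LH ι) := fun x =>
    continuousOn_const.mul (continuousOn_CtU hA J x)
  have iY : ∀ (l : ι → Λ) (x : ι) (g : ι → ℝ), Integrable
      (fun v => Yf A (WV E (eT u w τ l) v) g x) (Measure.pi fun x => ν (l x)) := fun l x g =>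
    integrable_Yf hA _ E (he l) g x
  have iB : ∀ (l : ι → Λ) (x : ι), Integrable (fun v => K * (eT u w τ l x *
      ∑ k ∈ range (J + 3), ∑ j, Yf A (WV E (eT u w τ l) v) (kf f J k j) x))
      (Measure.pi fun x => ν (l x)) := fun l x =>
    ((integrable_finset_sum _ fun k _ => integrable_finset_sum _ fun j _ =>
      iY l x _).const_mul _).const_mul _
  have h0 := abs_ErrSum_le (A := A) (p := p) (ν := ν) (E := E) hp hR he hom0 (rd := rd) (F := F)
    (G := fun _ x W => C0 * CtU A f J x W)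
    (B := fun l x W => K * (eT u w τ l x * ∑ k ∈ range (J + 3), ∑ j, Yf A W (kf f J k j) x))
    (fun l x _ => cG x) (fun l x _ => iB l x) (fun l x hx v => H l x (hne l x hx) v)
  refine h0.trans (add_le_add ?_ (le_of_eq ?_))
  · -- contents
    unfold AvS PhiG AvG
    rw [mul_sum]
    refine sum_le_sum fun l _ => ?_
    have hP : 0 ≤ ∏ x, p (l x) := prod_nonneg fun x _ => hp _
    have i1 : ∀ x, Integrable (fun v => C0 * CtU A f J x (WV E (eT u w τ l) v))
        (Measure.pi fun x => ν (l x)) := fun x =>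
      integrable_of_continuousOn (cG x) (fun x => hR (l x)) (he l)
    have e1 : ∑ x, omT u w τ l x * Ex (fun x => ν (l x)) E (eT u w τ l)
        (fun W => C0 * CtU A f J x W) =
        ∫ v, ∑ x, omT u w τ l x * (C0 * CtU A f J x (WV E (eT u w τ l) v))
          ∂(Measure.pi fun x => ν (l x)) := by
      rw [integral_finset_sum _ fun x _ => (i1 x).const_mul _]
      refine sum_congr rfl fun x _ => ?_
      rw [integral_const_mul]
      rfl
    rw [e1]
    have i2 := integrable_sum_En hA (Measure.pi fun x => ν (l x)) E (he l) f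
    have e2 : 5 * C0 * ((∏ x, p (l x)) * Ex (fun x => ν (l x)) E (eT u w τ l)
        (fun W => ∑ k, En A W (f k))) =
        (∏ x, p (l x)) * ∫ v, 5 * C0 * ∑ k, En A (WV E (eT u w τ l) v) (f k)
          ∂(Measure.pi fun x => ν (l x)) := by
      rw [integral_const_mul]
      unfold Ex
      ring
    rw [e2]
    refine mul_le_mul_of_nonneg_left (integral_mono (integrable_finset_sum _ fun x _ =>
      (i1 x).const_mul _) (i2.const_mul _) fun v => ?_) hP
    have h3 := sum_om_CtU_le (f := f) hA (WV_mem_LH (E := E) (he l) v) (hom1 l) J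
    calc ∑ x, omT u w τ l x * (C0 * CtU A f J x (WV E (eT u w τ l) v))
        = C0 * ∑ x, omT u w τ l x * CtU A f J x (WV E (eT u w τ l) v) := by
          rw [mul_sum]
          exact sum_congr rfl fun x _ => by ring
      _ ≤ C0 * (5 * ∑ k, En A (WV E (eT u w τ l) v) (f k)) :=
          mul_le_mul_of_nonneg_left h3 hC0
      _ = _ := by ring
  · -- hubs
    have e3 : ∀ (l : ι → Λ) (x : ι), Ex (fun x => ν (l x)) E (eT u w τ l)
        (fun W => K * (eT u w τ l x * ∑ k ∈ range (J + 3), ∑ j, Yf A W (kf f J k j) x)) =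
        K * (eT u w τ l x * ∑ k ∈ range (J + 3), ∑ j,
          Ex (fun x => ν (l x)) E (eT u w τ l) (fun W => Yf A W (kf f J k j) x)) := by
      intro l x
      unfold Ex
      rw [integral_const_mul, integral_const_mul, integral_finset_sum _ fun k _ =>
        integrable_finset_sum _ fun j _ => iY l x _]
      have e5 : ∀ k, ∫ v, ∑ j, Yf A (WV E (eT u w τ l) v) (kf f J k j) x
          ∂(Measure.pi fun x => ν (l x)) =
          ∑ j, ∫ v, Yf A (WV E (eT u w τ l) v) (kf f J k j) x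
          ∂(Measure.pi fun x => ν (l x)) := fun k =>
        integral_finset_sum _ fun j _ => iY l x _
      simp only [e5]
    have e4 : ∀ (l : ι → Λ) (x : ι), omT u w τ l x * eT u w τ l x = wT w τ l x := by
      intro l x
      unfold omT
      exact div_mul_cancel₀ _ (he l x).ne'
    unfold AvS YG
    rw [sum_comm, mul_sum]
    refine sum_congr rfl fun l _ => ?_
    rw [← mul_sum, mul_left_comm K]
    congr 1
    rw [sum_comm, mul_sum]
    refine sum_congr rfl fun x _ => ?_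
    rw [e3, ← e4, ← mul_sum]
    ring

end avg

/-! ### over `StW` -/

section stw

open P365T2.H213

variable {N : ℕ} [NeZero N] {W : StW N} {lam E C1 η : ℝ} {κ : Type} [Fintype κ]
  {f : κ → Tor N → ℝ}

/-- over `StW`: `|ErrSum| ≤ 5 C0 Phi f + K ∑_{k < J+3} Yg (kf f J k)` -/
theorem errSum_stW (ok : W.Ok lam E C1 η) {rd : W.Λ → ℝ → ℝ}
    {F : (Tor N → W.Λ) → (Tor N → ℂ) → ℝ} {J : ℕ} {τ C0 K : ℝ} (hC0 : 0 ≤ C0)
    (H : ∀ l x, W.w l x ≠ 0 → ∀ v,
      |∫ t : ℝ, rd (l x) t *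
        HV (AT N) (F l) x (WV E (eT W.u W.w τ l) (Function.update v x t))| ≤
      ∫ t, C0 * CtU (AT N) f J x (WV E (eT W.u W.w τ l) (Function.update v x t)) ∂(W.ν (l x)) +
        K * (eT W.u W.w τ l x *
          ∑ k ∈ range (J + 3), ∑ j, Yf (AT N) (WV E (eT W.u W.w τ l) v) (kf f J k j) x)) :
    |ErrSum (AT N) W.p W.ν E (eT W.u W.w τ) (omT W.u W.w τ) rd F| ≤
      5 * C0 * W.Phi E f τ + K * ∑ k ∈ range (J + 3), W.Yg E (kf f J k) τ := by
  haveI := ok.prob
  obtain ⟨b, hb, hu⟩ := ok.u_pos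
  exact errSum_le (AT_symm N) ok.p_nonneg (R := lam) (fun k => ok.supp k)
    (fun l x => hb.trans_le (hu l x)) ok.w_nonneg hC0 H

end stw

end P365T2.H256
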